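import Vale.Agent.P066.Lab.EQ

/-!
# EQ2: `FilR`, `Gc`, `Sb`, `PU` under a change of the colours
-/

set_option autoImplicit false
set_option linter.unusedSectionVars false

open Finset MvPolynomial

namespace Vale.Agent.P066.Lab

noncomputable section

variable {S : Type} [Fintype S] [DecidableEq S]
variable (k : Type) [Field k] {a : S → S → ℕ} {θ : S → ℤ}

theorem Ref_recolour_left {σ : ℕ → ℕ} (hσ : Function.Injective σ) (m c : S → ℕ) :
    Ref (σ ∘ m) c ↔ Ref m c := by
  constructor
  · intro h s t hst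
    exact h s t (congrArg σ hst)
  · intro h s t hst
    exact h s t (hσ hst)

theorem Ref_recolour_right {σ : ℕ → ℕ} (hσ : Function.Injective σ) (m c : S → ℕ) :
    Ref m (σ ∘ c) ↔ Ref m c := by
  constructor
  · intro h s t hst
    exact hσ (h s t hst)
  · intro h s t hst
    exact congrArg σ (h s t hst)

/-- `FilR c n` only depends on the partition of `c` -/
theorem FilR_recolour {σ : ℕ → ℕ} (hσ : Function.Injective σ) (c : S → ℕ) (n : ℤ)
    (f : MvPolynomial S k) : FilR k a θ (σ ∘ c) n f ↔ FilR k a θ c n f := by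
  unfold FilR
  simp only [Ref_recolour_right hσ]

theorem Gc_recolour (hs : SymZ a θ) {σ : ℕ → ℕ} (hσ : Function.Injective σ) (c : S → ℕ)
    (hc : Zc θ c) (f : MvPolynomial S k) : Gc k a θ (σ ∘ c) f ↔ Gc k a θ c f := by
  unfold Gc
  rw [FilR_recolour k hσ, nb_recolour hσ, CC_recolour hs hσ c hc]

/-- the symbol under a change of the colours, coefficientwise -/
theorem coeff_Sb_recolour {σ : ℕ → ℕ} (hσ : Function.Injective σ) (c : S → ℕ) (d : ℕ)
    (f : MvPolynomial S k) (α : ℕ →₀ ℕ) :
    coeff (Finsupp.mapDomain σ α) (Sb k a θ (σ ∘ c) d f) =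
      Ideal.quotEquivOfEq (JC_recolour k hσ c).symm (coeff α (Sb k a θ c d f)) := by
  unfold Sb
  rw [coeff_homogeneousComponent, coeff_homogeneousComponent, Finsupp.degree_mapDomain,
    coeff_map, coeff_map, Tc_recolour, coeff_rename_mapDomain σ hσ]
  split_ifs
  · rfl
  · rw [map_zero]

/-- the symbol under a change of the colours -/
theorem Sb_recolour {σ : ℕ → ℕ} (hσ : Function.Injective σ) (c : S → ℕ) (d : ℕ)
    (f : MvPolynomial S k) :
    Sb k a θ (σ ∘ c) d f = rename σ (map
      (Ideal.quotEquivOfEq (JC_recolour k (a := a) (θ := θ) hσ c).symm : _ →+* _)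
      (Sb k a θ c d f)) := by
  ext α
  by_cases hr : ∃ β, Finsupp.mapDomain σ β = α
  · obtain ⟨β, rfl⟩ := hr
    rw [coeff_Sb_recolour k hσ, coeff_rename_mapDomain σ hσ, coeff_map]
    rfl
  · rw [coeff_rename_eq_zero]
    · unfold Sb
      rw [coeff_homogeneousComponent, coeff_map, Tc_recolour, coeff_rename_eq_zero]
      · simp
      · intro β hβ
        exact absurd ⟨β, hβ⟩ hr
    · intro β hβ
      exact absurd ⟨β, hβ⟩ hr

/-- a product over pairs of particles whose factors only depend on the colours -/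
theorem prod_pairs_eq {M : Type} [CommMonoid M] (a : S → S → ℕ) (c : S → ℕ)
    (r : ℕ → ℕ → Prop) [DecidableRel r] (F : ℕ → ℕ → M) :
    ∏ p ∈ univ.filter (fun p : S × S => r (c p.1) (c p.2)), F (c p.1) (c p.2) ^ a p.1 p.2 =
      ∏ i ∈ univ.image c, ∏ j ∈ univ.image c,
        if r i j then F i j ^ (∑ s ∈ blk c i, ∑ t ∈ blk c j, a s t) else 1 := by
  rw [Finset.prod_filter, Fintype.prod_prod_type]
  rw [← Finset.prod_fiberwise_of_maps_to (s := univ) (t := univ.image c) (g := c)
    (fun s _ => Finset.mem_image_of_mem c (mem_univ s))]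
  refine Finset.prod_congr rfl fun i _ => ?_
  have h2 : ∀ s : S, ∏ t, (if r (c s) (c t) then F (c s) (c t) ^ a s t else 1) =
      ∏ j ∈ univ.image c, ∏ t ∈ univ.filter (fun t => c t = j),
        if r (c s) (c t) then F (c s) (c t) ^ a s t else 1 := by
    intro s
    rw [Finset.prod_fiberwise_of_maps_to (s := univ) (t := univ.image c) (g := c)
      (fun s _ => Finset.mem_image_of_mem c (mem_univ s))]
  rw [Finset.prod_congr rfl fun s _ => h2 s, Finset.prod_comm]
  refine Finset.prod_congr rfl fun j _ => ?_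
  unfold blk
  split_ifs with h
  · rw [← Finset.prod_pow_eq_pow_sum]
    refine Finset.prod_congr rfl fun s hs => ?_
    rw [← Finset.prod_pow_eq_pow_sum]
    refine Finset.prod_congr rfl fun t ht => ?_
    rw [(mem_filter.mp hs).2, (mem_filter.mp ht).2, if_pos h]
  · refine Finset.prod_eq_one fun s hs => Finset.prod_eq_one fun t ht => ?_
    rw [(mem_filter.mp hs).2, (mem_filter.mp ht).2, if_neg h]

theorem arN_symm (hs : SymZ a θ) {c : S → ℕ} (hc : Zc θ c) {i j : ℕ} (hij : i ≠ j) :
    ∑ s ∈ blk c i, ∑ t ∈ blk c j, a s t = ∑ s ∈ blk c j, ∑ t ∈ blk c i, a s t := by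
  have h1 : ar a (blk c i) (blk c j) = ar a (blk c j) (blk c i) := by
    refine hs _ _ ?_ (hc _) (hc _)
    rw [Finset.disjoint_left]
    intro s h1 h2
    rw [mem_blk] at h1 h2
    exact hij (h1.symm.trans h2)
  unfold ar at h1
  exact_mod_cast h1

/-- in a product over pairs the arrows may be reversed, if the blocks have weight zero -/
theorem prod_pairs_symm {M : Type} [CommMonoid M] (hs : SymZ a θ) {c : S → ℕ} (hc : Zc θ c)
    (r : ℕ → ℕ → Prop) [DecidableRel r] (hr : ∀ i, ¬ r i i) (F : ℕ → ℕ → M) :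
    ∏ p ∈ univ.filter (fun p : S × S => r (c p.1) (c p.2)), F (c p.1) (c p.2) ^ a p.1 p.2 =
      ∏ p ∈ univ.filter (fun p : S × S => r (c p.1) (c p.2)),
        F (c p.1) (c p.2) ^ a p.2 p.1 := by
  rw [prod_pairs_eq a c r F, prod_pairs_eq (fun s t => a t s) c r F]
  refine Finset.prod_congr rfl fun i _ => Finset.prod_congr rfl fun j _ => ?_
  split_ifs with h
  · congr 1
    have hij : i ≠ j := fun h' => hr j (h' ▸ h)
    rw [arN_symm hs hc hij, Finset.sum_comm]
  · rfl

/-- number of arrows between the blocks whose order is inverted by `σ` -/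
def invN (a : S → S → ℕ) (σ : ℕ → ℕ) (c : S → ℕ) : ℕ :=
  ∑ p ∈ univ.filter (fun p : S × S => c p.1 < c p.2 ∧ σ (c p.2) < σ (c p.1)), a p.1 p.2

theorem PU_recolour (R : Type) [CommRing R] (hs : SymZ a θ) {σ : ℕ → ℕ}
    (hσ : Function.Injective σ) (c : S → ℕ) (hc : Zc θ c) :
    PU a R (σ ∘ c) = (-1) ^ invN a σ c * rename σ (PU a R c) := by
  classical
  have hdis : ∀ (P Q : S × S → Prop) [DecidablePred P] [DecidablePred Q],
      (∀ p, P p → ¬ Q p) → Disjoint (univ.filter P) (univ.filter Q) := by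
    intro P Q _ _ h
    rw [Finset.disjoint_left]
    intro p h1 h2
    exact h p (mem_filter.mp h1).2 (mem_filter.mp h2).2
  -- split the left hand side
  have h1 : (univ.filter fun p : S × S => (σ ∘ c) p.1 < (σ ∘ c) p.2) =
      (univ.filter fun p : S × S => c p.1 < c p.2 ∧ σ (c p.1) < σ (c p.2)) ∪
      (univ.filter fun p : S × S => c p.2 < c p.1 ∧ σ (c p.1) < σ (c p.2)) := by
    ext p
    simp only [mem_filter, mem_univ, true_and, mem_union, Function.comp_apply]
    constructor
    · intro h
      rcases lt_trichotomy (c p.1) (c p.2) with h' | h' | h'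
      · exact Or.inl ⟨h', h⟩
      · rw [h'] at h
        exact absurd h (lt_irrefl _)
      · exact Or.inr ⟨h', h⟩
    · rintro (h | h)
      · exact h.2
      · exact h.2
  have h2 : (univ.filter fun p : S × S => c p.1 < c p.2) =
      (univ.filter fun p : S × S => c p.1 < c p.2 ∧ σ (c p.1) < σ (c p.2)) ∪
      (univ.filter fun p : S × S => c p.1 < c p.2 ∧ σ (c p.2) < σ (c p.1)) := by
    ext p
    simp only [mem_filter, mem_univ, true_and, mem_union]
    constructor
    · intro h
      rcases lt_trichotomy (σ (c p.1)) (σ (c p.2)) with h' | h' | h'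
      · exact Or.inl ⟨h, h'⟩
      · rw [hσ h'] at h
        exact absurd h (lt_irrefl _)
      · exact Or.inr ⟨h, h'⟩
    · rintro (h | h)
      · exact h.1
      · exact h.1
  unfold PU
  rw [h1, prod_union (hdis _ _ fun p hp hq => by omega), h2,
    prod_union (hdis _ _ fun p hp hq => by omega), map_mul, map_prod, map_prod, mul_left_comm]
  congr 1
  · refine prod_congr rfl fun p _ => ?_
    rw [map_pow, map_sub, rename_X, rename_X]
    rfl
  · -- reverse the pairs
    have h3 : ∏ p ∈ univ.filter (fun p : S × S => c p.2 < c p.1 ∧ σ (c p.1) < σ (c p.2)),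
        (X ((σ ∘ c) p.2) - X ((σ ∘ c) p.1) : MvPolynomial ℕ R) ^ a p.1 p.2 =
        ∏ p ∈ univ.filter (fun p : S × S => c p.1 < c p.2 ∧ σ (c p.2) < σ (c p.1)),
          (X (σ (c p.1)) - X (σ (c p.2)) : MvPolynomial ℕ R) ^ a p.2 p.1 := by
      refine prod_nbij' Prod.swap Prod.swap ?_ ?_ ?_ ?_ ?_
      · intro p hp
        simpa using hp
      · intro p hp
        simpa using hp
      · intro p _
        simp
      · intro p _
        simp
      · intro p _
        simp
    rw [h3]
    have h4 := prod_pairs_symm (M := MvPolynomial ℕ R) hs hc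
      (fun i j => i < j ∧ σ j < σ i) (fun i h => absurd h.1 (lt_irrefl _))
      (fun i j => X (σ i) - X (σ j))
    rw [← h4, invN, ← Finset.prod_pow_eq_pow_sum, ← Finset.prod_mul_distrib]
    refine prod_congr rfl fun p _ => ?_
    rw [map_pow, map_sub, rename_X, rename_X, ← mul_pow]
    congr 1
    ring

end

end Vale.Agent.P066.Lab
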